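import Claimed.Agent.R255.Pkt.Base

/-!
# R255 / Pkt / Cut : THE FROZEN DATA OF A CUT = INTERFACE ANALYSIS → ENTROPY (BR L9.3, L9.4, winner)        (architect helper207)   -- KEEP

A cut goes from the endpoint depth `t` back to `r < t`, with localizer velocity depth `bs = b_*`.  Everything lives on ONE environment `E` (original input `f`), ABSOLUTE coordinates.
* `Loc0 = ℤ × ℤ² × ℤ²` : the geometric localizer (9.9) as EXACT cells: `loc0 ε r bs s = (⌊C/ε^r⌋, cell_{ε^bs} V, cell_{ε^(r+bs)} (X - (C - C_r) V))`;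
  `Loc0.Cr`, `Loc0.VJ`, `Loc0.XJ` = time anchor (left end point), cell CENTRES.
* `Atoms` (stage A, L9.3) : finite family of earlier atoms `asite T = (C_r, V_T, X_T, η_T)`, each attached to a localizer `loc T`.
  The coefficient is NOT a field: `coef E r T = pairing (f ; (C_r, V_T, X_T, conj η_T))` = an analysis test of the ORIGINAL input at time `r`.
  `At.sup E r S = Σ_{T ∈ S} c_T g_T`.
* `Classes` (stage B, L9.4) : whole greedy classes `cls T`, with mass bin `mB`, cap maximum `gB`, assigned cap `acap T` (an aperture read-out at depth `r`, ABSOLUTE widths), common LOCAL widths `(jB, lB)`.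
  NO CAP MENU: the greedy step takes a cap within `ξ` of the supremum over ALL caps, so `capcount` holds for ALL caps with NO error.
* stage C : ANY tag map `tag : 𝔸 → τ`;  label `J = (localizer, class, tag) : Lab τ`;  `N`, `Nall`, `hJ`.
* stage D : winner map `win : ι → ℕ × τ` on the endpoint sites, `IsWin`.
All inequalities of Secs. 10-11 are stated for ANY current endpoint law with these data frozen.
-/

set_option autoImplicit false

namespace Claimed.Agent.R255.Pkt

open MeasureTheory Claimed.Agent.R255.Osc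
open scoped BigOperators
open Classical

/-- the cell of side `w` containing `x` -/
noncomputable def cell (w : ℝ) (x : E2) : ℤ × ℤ := (⌊x 0 / w⌋, ⌊x 1 / w⌋)

/-- the centre of a cell -/
noncomputable def cellC (w : ℝ) (k : ℤ × ℤ) : E2 := !₂[w * ((k.1 : ℝ) + 1 / 2), w * ((k.2 : ℝ) + 1 / 2)]

/-- geometric localizers -/
abbrev Loc0 : Type := ℤ × (ℤ × ℤ) × (ℤ × ℤ)

/-- the geometric localizer (9.9) of an endpoint site -/
noncomputable def loc0 (ε r bs : ℝ) (s : Site) : Loc0 :=
  (⌊s.C / ε ^ r⌋, cell (ε ^ bs) s.V, cell (ε ^ r * ε ^ bs) (s.X - (s.C - tanchor ε r s.C) • s.V))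

/-- time anchor of a localizer -/
noncomputable def Loc0.Cr (j : Loc0) (ε r : ℝ) : ℝ := ε ^ r * (j.1 : ℝ)
/-- velocity centre of a localizer -/
noncomputable def Loc0.VJ (j : Loc0) (ε bs : ℝ) : E2 := cellC (ε ^ bs) j.2.1
/-- position centre (at time `C_r`) of a localizer -/
noncomputable def Loc0.XJ (j : Loc0) (ε r bs : ℝ) : E2 := cellC (ε ^ r * ε ^ bs) j.2.2

/-- the site with the conjugate amplitude -/
noncomputable def Site.conj (s : Site) : Site := { s with ψ := fun z => (starRingEnd ℂ) (s.ψ z) }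

/-- the site lies in the phase-space cap read off from `g` at depth `r` (enlargement `K`) -/
def InCap (K ε r : ℝ) (g : Geo) (s : Site) : Prop :=
  InRect K ε g.b g.a g.th (toP s.V - g.vc) ∧ InRect K ε (g.b + r) (g.a + r) g.th (toP s.X - g.xc)

/-- stage A: a finite family of earlier atoms attached to localizers -/
structure Atoms where
  𝔸 : Type
  fin : Fintype 𝔸
  asite : 𝔸 → Site
  loc : 𝔸 → Loc0

attribute [instance] Atoms.fin

namespace Atoms

variable (At : Atoms)

/-- the coefficient `c_T` = analysis test of the original input at time `r` -/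
noncomputable def coef (E : PEnv) (r : ℝ) (T : At.𝔸) : ℂ :=
  pairing E.lam (E.rho r) E.Φ E.f (At.asite T).conj

/-- the superposition `Σ_{T ∈ S} c_T g_T` -/
noncomputable def sup (E : PEnv) (r : ℝ) (S : At.𝔸 → Prop) : E2 → ℂ := fun v =>
  ∑ T, if S T then At.coef E r T * atom E.lam (E.rho r) E.Φ (At.asite T) v else 0

/-- constants of stage A -/
structure Par where
  /-- support radius / derivative bounds of the atom amplitudes, multiplicity inside one localizer -/
  Ra : ℝ
  Bb : ℕ → ℝ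
  Mu : ℕ
  /-- atoms lie within `Ca` cell sizes of the centre of their localizer -/
  Ca : ℝ
  /-- truncation power `A`, coefficient floor exponent `B` -/
  A : ℝ
  Bx : ℝ

/-- **the conclusions of L9.3** (part (2), transport, is a separate general theorem on atoms and tests) -/
structure Good (E : PEnv) (B : PBd) (t r bs : ℝ) (p : Par) : Prop where
  time : ∀ T, (At.asite T).C = (At.loc T).Cr E.ε r
  amp : ∀ T, AmpC p.Ra p.Bb (At.asite T).ψ
  nearV : ∀ T, ‖(At.asite T).V - (At.loc T).VJ E.ε bs‖ ≤ p.Ca * E.ε ^ bs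
  nearX : ∀ T, ‖(At.asite T).X - (At.loc T).XJ E.ε r bs‖ ≤ p.Ca * (E.ε ^ r * E.ε ^ bs)
  mult : ∀ T, (Finset.univ.filter (fun T' => At.loc T' = At.loc T ∧
    ‖(At.asite T').V - (At.asite T).V‖ < E.rho r ∧ ‖(At.asite T').X - (At.asite T).X‖ < E.sig r)).card ≤ p.Mu
  floor : ∀ T, E.ε ^ p.Bx * E.nrm2 ≤ ‖At.coef E r T‖ ^ 2
  trunc : ∀ s : Site, AmpC B.Ra B.K.Bb s.ψ → 0 ≤ s.C → s.C < 1 → ‖s.V‖ ≤ B.K.Rv → ‖s.X‖ ≤ B.K.Rx →
    ‖pairing E.lam (E.rho t) E.Φ E.f s
      - pairing E.lam (E.rho t) E.Φ (At.sup E r (fun T => At.loc T = loc0 E.ε r bs s)) s‖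
      ≤ E.ε ^ p.A * Real.sqrt E.nrm2

end Atoms

/-- stage B: whole greedy classes -/
structure Classes (At : Atoms) where
  cls : At.𝔸 → ℕ
  /-- coefficient mass bin `m(ι)` -/
  mB : Loc0 → ℕ → ℝ
  /-- cap maximum bin `g(ι)` (LOCAL units: weights of local root caps) -/
  gB : Loc0 → ℕ → ℝ
  /-- common LOCAL widths `(j, l)` of the assigned caps -/
  jB : Loc0 → ℕ → ℝ
  lB : Loc0 → ℕ → ℝ
  /-- assigned cap, ABSOLUTE widths `(j + b_*, l + b_*)`, an aperture read-out at depth `r` -/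
  acap : At.𝔸 → Geo

namespace Classes

variable {At : Atoms} (Cl : Classes At)

/-- **the conclusions of L9.4**; `ξ` = mesh, `S0` = number of classes at a localizer -/
structure Good (γ : ℝ) (E : PEnv) (r bs ξ : ℝ) (S0 : ℕ) : Prop where
  ncls : ∀ T, Cl.cls T < S0
  massLo : ∀ T, Cl.mB (At.loc T) (Cl.cls T) ≤ ‖At.coef E r T‖ ^ 2
  massHi : ∀ T, ‖At.coef E r T‖ ^ 2 ≤ Cl.mB (At.loc T) (Cl.cls T) * E.ε ^ (-ξ)
  /-- (9.24) for ALL caps of admissible widths, no error -/
  capcount : ∀ (j : Loc0) (k : ℕ) (F : Geo), bs ≤ F.b → F.b ≤ F.a → F.a ≤ E.L - r → F.a ≤ E.u r →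
    ((Finset.univ.filter (fun T => At.loc T = j ∧ Cl.cls T = k ∧ InCap 1 E.ε r F (At.asite T))).card : ℝ)
      ≤ E.ε ^ (-(Cl.gB j k - (wt γ F - 2 * bs)))
  /-- (9.25) for the WHOLE class -/
  fibre : ∀ T, E.ε ^ (-(Cl.gB (At.loc T) (Cl.cls T) - (wt γ (Cl.acap T) - 2 * bs) - 2 * ξ)) ≤
    ((Finset.univ.filter (fun T' => At.loc T' = At.loc T ∧ Cl.cls T' = Cl.cls T ∧ Cl.acap T' = Cl.acap T)).card : ℝ)
  capOK : ∀ T, GeoOK (Cl.acap T) 1 E.ε r E.L (E.u r) (At.asite T)
  capbs : ∀ T, bs ≤ (Cl.acap T).b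
  widthj : ∀ T, |(Cl.acap T).b - bs - Cl.jB (At.loc T) (Cl.cls T)| ≤ ξ
  widthl : ∀ T, |(Cl.acap T).a - bs - Cl.lB (At.loc T) (Cl.cls T)| ≤ ξ

/-- full labels `J = (localizer, class, tag)` -/
abbrev Lab (τ : Type) : Type := Loc0 × ℕ × τ

variable {τ : Type}

/-- the label of an atom -/
def lab (tag : At.𝔸 → τ) (T : At.𝔸) : Lab τ := (At.loc T, Cl.cls T, tag T)

/-- retained size `N(J)` -/
noncomputable def N (tag : At.𝔸 → τ) (J : Lab τ) : ℕ := (Finset.univ.filter (fun T => Cl.lab tag T = J)).card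

/-- whole class size `N_all(J)` -/
noncomputable def Nall (J : Lab τ) : ℕ := (Finset.univ.filter (fun T => At.loc T = J.1 ∧ Cl.cls T = J.2.1)).card

/-- the retained superposition `h_J` -/
noncomputable def hJ (E : PEnv) (r : ℝ) (tag : At.𝔸 → τ) (J : Lab τ) : E2 → ℂ :=
  At.sup E r (fun T => Cl.lab tag T = J)

/-- the local environment of `J` -/
noncomputable def envJ (E : PEnv) (r bs : ℝ) (tag : At.𝔸 → τ) (J : Lab τ) : PEnv :=
  E.resc r bs (J.1.Cr E.ε r) (J.1.VJ E.ε bs) (J.1.XJ E.ε r bs) (Cl.hJ E r tag J)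

/-- `A_J = logeps N + (3/2) logeps m + g/2`      (9.28) -/
noncomputable def AJ (E : PEnv) (tag : At.𝔸 → τ) (J : Lab τ) : ℝ :=
  Real.log (Cl.N tag J) / lg E.ε + 3 / 2 * (Real.log (Cl.mB J.1 J.2.1) / lg E.ε) + Cl.gB J.1 J.2.1 / 2

/-- `d_1(J) = logeps (N_all / N)` -/
noncomputable def d1 (E : PEnv) (tag : At.𝔸 → τ) (J : Lab τ) : ℝ :=
  (Real.log (Cl.Nall J) - Real.log (Cl.N tag J)) / lg E.ε

/-- the label of an endpoint site under a winner map -/
noncomputable def Jof (E : PEnv) (r bs : ℝ) {ι : Type} (site : ι → Site) (win : ι → ℕ × τ) (i : ι) : Lab τ :=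
  (loc0 E.ε r bs (site i), (win i).1, (win i).2)

/-- stage D: `win` picks at each endpoint site a subclass with the largest absolute pairing -/
def IsWin (E : PEnv) (t r bs : ℝ) (tag : At.𝔸 → τ) {ι : Type} (site : ι → Site) (win : ι → ℕ × τ) : Prop :=
  ∀ (i : ι) (k : ℕ) (a : τ),
    ‖pairing E.lam (E.rho t) E.Φ (Cl.hJ E r tag (loc0 E.ε r bs (site i), k, a)) (site i)‖
      ≤ ‖pairing E.lam (E.rho t) E.Φ (Cl.hJ E r tag (Jof E r bs site win i)) (site i)‖

/-- the returned earlier test: law `μ(T) = π_J(lab T) / N(lab T)` (any weights `q` on labels), observation = the atom, site = coefficient test,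
label `D_r = (J, aperture)`, aperture `ap T` (`= acap T` : assigned caps;  or the exact isotropic boundary aperture) -/
noncomputable def earlier (r : ℝ) (tag : At.𝔸 → τ) (μ : FLaw At.𝔸) (ap : At.𝔸 → Geo) : PTest where
  t := r
  Ω := At.𝔸
  finΩ := At.fin
  P := μ
  ι := At.𝔸
  finι := At.fin
  site := fun T => (At.asite T).conj
  O := id
  Γ := Lab τ × Geo
  D := fun T => (Cl.lab tag T, ap T)
  geo := Prod.snd

end Classes

end Claimed.Agent.R255.Pkt
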