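import Claimed.Agent.R255.Pkt.Base

/-!
# R255 / Pkt / Top : TOP DEFINITIONS OF THE PACKET HALF (BR Secs. 9-12) + CONTRACT-FREE LEMMAS        (architect helper207)   -- KEEP

`SatAt`, `Forced`, `Saturated` (SCALE FREE, unit = duration `T.t`), `PRate.mono`, `prate_betaq_of`, `saturated_betaq`.   NO `sorry` here.
The top glue (`betaq_le`, `packet_growth`, `osc`) is in `Pkt/Final.lean`, which imports the owners' files.
-/

set_option autoImplicit false

namespace Claimed.Agent.R255.Pkt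

open Claimed.Agent.R255.Osc

theorem PRate.mono {γ β β' : ℝ} (h : β ≤ β') (H : PRate γ β) : PRate γ β' := by
  intro B hB ν hν
  obtain ⟨ε₀, h0, h1, H'⟩ := H B hB ν hν
  refine ⟨ε₀, h0, h1, fun E T he hE hT => ?_⟩
  have := H' E T he hE hT
  have ht : 0 < T.t := lt_of_lt_of_le hB.tmin hT.t0
  nlinarith

/-- `(E,T)` obeys `B` and its growth deficit is at most `ϑ` times the duration -/
def SatAt (γ β : ℝ) (B : PBd) (ϑ : ℝ) (E : PEnv) (T : PTest) : Prop :=
  E.Obeys B ∧ T.Obeys B E ∧ K0 γ B.M E + β * T.t - score γ E T ≤ ϑ * T.t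

/-- "a forced saturation array exists, with window `ν` and gap `κ`" (10.13), scale free, finite form -/
def Forced (γ β ν κ : ℝ) : Prop :=
  ∀ ϑ : ℝ, 0 < ϑ → ∃ B : PBd, B.Good ∧ ∀ ε₀ : ℝ, 0 < ε₀ → ∃ (E : PEnv) (T : PTest), E.ε < ε₀ ∧
    SatAt γ β B ϑ E T ∧ K0geLe γ B.M E (E.u 0 - ν * T.t) (K0 γ B.M E - κ * T.t)

/-- saturating systems exist at every accuracy -/
def Saturated (γ β : ℝ) : Prop :=
  ∀ ϑ : ℝ, 0 < ϑ → ∃ B : PBd, B.Good ∧ ∀ ε₀ : ℝ, 0 < ε₀ → ∃ (E : PEnv) (T : PTest), E.ε < ε₀ ∧ SatAt γ β B ϑ E T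

theorem betaq_nonneg (γ : ℝ) : 0 ≤ betaq γ := by
  apply Real.sInf_nonneg
  intro x hx
  exact hx.1

theorem betaq_le_one_of (γ : ℝ) (hone : PRate γ 1) : betaq γ ≤ 1 :=
  csInf_le ⟨0, fun _ hx => hx.1⟩ ⟨zero_le_one, hone⟩

/-- (10.1): the infimum is attained -/
theorem prate_betaq_of (γ : ℝ) (hone : PRate γ 1) : PRate γ (betaq γ) := by
  intro B hB ν hν
  -- a rate slightly above the infimum
  set Hm : ℝ := max B.Hmax 1 with hHm
  have hHm0 : 0 < Hm := lt_of_lt_of_le one_pos (le_max_right _ _)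
  have hne : ({β : ℝ | 0 ≤ β ∧ PRate γ β}).Nonempty := ⟨1, zero_le_one, hone⟩
  obtain ⟨β', hβ', hlt⟩ := Real.lt_sInf_add_pos hne (ε := ν / (2 * Hm)) (by positivity)
  obtain ⟨ε₀, e0, e1, H'⟩ := hβ'.2 B hB (ν / 2) (by positivity)
  refine ⟨ε₀, e0, e1, fun E T he hE hT => ?_⟩
  have h := H' E T he hE hT
  have ht : 0 < T.t := lt_of_lt_of_le hB.tmin hT.t0
  -- `T.t ≤ H ≤ Hmax`
  obtain ⟨o, ho⟩ : ∃ o, 0 < T.P.p o := by
    by_contra hcon
    push Not at hcon
    have hz : ∑ o, T.P.p o ≤ 0 := Finset.sum_nonpos fun o _ => hcon o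
    rw [T.P.sum_one] at hz
    linarith
  have hg := hT.geo o ho
  have hu : 0 ≤ E.u T.t := le_trans hg.1 (le_trans hg.2.1 hg.2.2.2.1)
  have htH : T.t ≤ Hm := by
    have : T.t ≤ E.H := by
      unfold PEnv.u at hu
      linarith
    exact le_trans this (le_trans hE.H1 (le_max_left _ _))
  have hb : β' - betaq γ < ν / (2 * Hm) := by
    unfold betaq
    linarith
  have hmul : (β' - betaq γ) * T.t ≤ ν / (2 * Hm) * Hm :=
    mul_le_mul hb.le htH ht.le (by positivity)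
  have hsimp : ν / (2 * Hm) * Hm = ν / 2 := by
    field_simp
  nlinarith

/-- saturating systems exist at every accuracy (definition of the infimum) -/
theorem saturated_betaq (γ : ℝ) (hpos : 0 < betaq γ) : Saturated γ (betaq γ) := by
  intro ϑ hϑ
  by_contra hcon
  push Not at hcon
  -- then the rate `max (β_q - ϑ) 0` would be admissible
  have hrate : PRate γ (max (betaq γ - ϑ) 0) := by
    intro B hB ν hν
    obtain ⟨ε₀, e0, H⟩ := hcon B hB
    refine ⟨min ε₀ (1 / 2), lt_min e0 (by norm_num), lt_of_le_of_lt (min_le_right _ _) (by norm_num),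
      fun E T he hE hT => ?_⟩
    have h := H E T (lt_of_lt_of_le he (min_le_left _ _))
    unfold SatAt at h
    push Not at h
    have h' := h hE hT
    have ht : 0 < T.t := lt_of_lt_of_le hB.tmin hT.t0
    have hm : (betaq γ - ϑ) * T.t ≤ max (betaq γ - ϑ) 0 * T.t :=
      mul_le_mul_of_nonneg_right (le_max_left _ _) ht.le
    nlinarith
  have hle : betaq γ ≤ max (betaq γ - ϑ) 0 :=
    csInf_le ⟨0, fun _ hx => hx.1⟩ ⟨le_max_right _ _, hrate⟩
  rcases le_max_iff.1 hle with h | h <;> linarith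

end Claimed.Agent.R255.Pkt
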