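import Claimed.Agent.R255.Pkt.Cut
import Claimed.Agent.R255.Pk9.Classes
import Claimed.Agent.R255.Pk.AtomsExist

/-!
# R255 / Pkt / CutThm : EXISTENCE OF THE FROZEN DATA (BR L9.3, L9.4)        (architect helper207)   -- KEEP

Consumers import THIS file.   No `sorry` here: citations of the owners' theorems.
* `atoms_exist`    := `pk_atoms_exist`     (helper91, `R255/Pk/AtomsExist.lean`)
* `classes_exist`  := `p9_classes_exist`   (helper256, `R255/Pk9/Classes.lean`)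
-/

set_option autoImplicit false

namespace Claimed.Agent.R255.Pkt

open MeasureTheory Claimed.Agent.R255.Osc

/-- **L9.3** (parts (1), (3), coefficient floor).  OWNER: helper91 (AN).
Order of the constants: the atom bounds `(Ra, Bb, Mu, Ca)` depend only on `B` and the minimal gap `dmin`; then the power `A`; then the floor exponent `Bx` and `ε₀`. -/
theorem atoms_exist (B : PBd) (hB : B.Good) (dmin : ℝ) (hd : 0 < dmin) :
    ∃ (Ra : ℝ) (Bb : ℕ → ℝ) (Mu : ℕ) (Ca : ℝ), Ra ≤ 100 ∧ 0 ≤ Ca ∧ ∀ A : ℝ, 0 < A → ∃ (Bx ε₀ : ℝ), 0 < ε₀ ∧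
      ∀ E : PEnv, E.Obeys B → E.ε < ε₀ → 0 < E.nrm2 → ∀ t r bs : ℝ, 0 ≤ r → r + dmin ≤ t → 0 ≤ bs → bs ≤ E.u t →
        ∃ At : Atoms, At.Good E B t r bs ⟨Ra, Bb, Mu, Ca, A, Bx⟩ :=
  pk_atoms_exist B hB dmin hd

/-- **L9.4** (greedy classes inside mass bins; near-maximisers over ALL caps).  OWNER: helper256 (S9b). -/
theorem classes_exist (γ : ℝ) (h0 : 0 < γ) (h1 : γ < 1) (B : PBd) (hB : B.Good) (p : Atoms.Par) (ξ : ℝ) (hξ : 0 < ξ) :
    ∃ (S0 : ℕ) (ε₀ : ℝ), 0 < ε₀ ∧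
      ∀ E : PEnv, E.Obeys B → E.ε < ε₀ → 0 < E.nrm2 → ∀ t r bs : ℝ, 0 ≤ r → r ≤ t → 0 ≤ bs → bs ≤ E.u t → bs ≤ E.L - t →
        ∀ At : Atoms, At.Good E B t r bs p → ∃ Cl : Classes At, Cl.Good γ E r bs ξ S0 :=
  p9_classes_exist γ h0 h1 B hB p ξ hξ

end Claimed.Agent.R255.Pkt
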