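import Claimed.Agent.R255.Pkt.Cut
import Claimed.Agent.R255.Pk9.Score
import Claimed.Agent.R255.Cl.Tools.Tau
import Claimed.Agent.R255.Cl.Tools.Cells

/-!
# R255 / Pkt / Klass : THE CLASSICAL INTERFACE (how Secs. 10-11 use Theorem 4.2)        (architect helper207)   -- KEEP

ONE theorem, `kl_growth`, consumed by L10.3 (`pkt_slack`) and by P11.4 ((11.faithful-classical-bound)), L11.3 if wanted.
DATA `KlData` (ABSOLUTE coordinates): a finite population `S` of exact lines `x(c) = X k + (c - C_r) V k` (earlier atoms of one label `J`), a finite law `Q` on `Ω` with observations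
`Tt : Ω → κ` (the line), `c : Ω → ℝ` (the endpoint time anchor), a label `G : Ω → Γ` with read-out `geo : Γ → Geo` at depth `r + d`.
HYPOTHESES `KlData.Hyp γ Kf Bc Mu gg`:  the lines lie within `Bc` cells of the localizer `(C_r, V_J, X_J)`;  `C_r ≤ c < C_r + ε^r`, time multiplicity `Mu` at scale `ε^(r+d)`;
`G` is FAITHFUL for the sampled line (enlargement `Kf`), widths `b_* ≤ b ≤ a`, `a - b_* + d ≤ Lc`;   CAP COUNT: every cap `F` at depth `r` with `b_* ≤ F.b ≤ F.a ≤ Lc + b_*` contains at most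
`ε^(-(gg - (w(F) - 2 b_*)))` lines of `S`   (`Classes.Good.capcount`, valid for every subset of a whole class).
CONCLUSION:    `E[w(G) - 2 b_*] + [H(T | G) + 2 H(c | T)] / ℓ ≤ gg + γ d + ν`       for `ε < ε₀(Kf, Bc, Mu, Lmax, dmin, ν)`.
PROOF.  Local classical system `D.sys` (`V' = (V - V_J)/ε^bs`, `A' = (X - X_J)/ε^(r+bs)`, `c' = (c - C_r)/ε^r`), label read-out `gresc`:  `kl_label`, `kl_bdd` (exact scaling);
`kl_tau` : `τ_{Lc} ≤ gg - H(T)/ℓ`  (every root label is an absolute cap; `p9_entC_le_card`);   `kl_time` : `H(c | T) ≤ H(tcell | T) + log Mu` (a dyadic cell has length `≤ ε^d`);   `UnivBound γ γ`.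
LEAVES: KL-A (`kl_label`, `kl_bdd`), KL-B (`kl_tau`), KL-C (`kl_time`).   The assembly `kl_growth` is PROVED here.
-/

set_option autoImplicit false

namespace Claimed.Agent.R255.Pkt

open Claimed.Agent.R255.Osc
open scoped BigOperators
open Classical

/-- the data of one application of the classical theorem -/
structure KlData where
  ε : ℝ
  r : ℝ
  bs : ℝ
  /-- duration `t - r` -/
  d : ℝ
  /-- classical horizon (LOCAL units) -/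
  Lc : ℝ
  Cr : ℝ
  VJ : E2
  XJ : E2
  κ : Type
  S : Finset κ
  V : κ → E2
  X : κ → E2
  Ω : Type
  fin : Fintype Ω
  Q : @FLaw Ω fin
  Tt : Ω → κ
  c : Ω → ℝ
  Γ : Type
  G : Ω → Γ
  geo : Γ → Geo

attribute [instance] KlData.fin

namespace KlData

variable (D : KlData)

/-- the hypotheses -/
structure Hyp (γ Kf Bc : ℝ) (Mu : ℕ) (gg : ℝ) : Prop where
  mem : ∀ o, 0 < D.Q.p o → D.Tt o ∈ D.S
  nearV : ∀ k ∈ D.S, ‖D.V k - D.VJ‖ ≤ Bc * D.ε ^ D.bs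
  nearX : ∀ k ∈ D.S, ‖D.X k - D.XJ‖ ≤ Bc * (D.ε ^ D.r * D.ε ^ D.bs)
  time : ∀ o, 0 < D.Q.p o → D.Cr ≤ D.c o ∧ D.c o < D.Cr + D.ε ^ D.r
  multT : ∀ o, 0 < D.Q.p o → (((Finset.univ.filter (fun o' => 0 < D.Q.p o')).image D.c).filter
    (fun x => |x - D.c o| < D.ε ^ (D.r + D.d))).card ≤ Mu
  faith : ∀ o, 0 < D.Q.p o → D.bs ≤ (D.geo (D.G o)).b ∧ (D.geo (D.G o)).b ≤ (D.geo (D.G o)).a ∧
    (D.geo (D.G o)).a - D.bs + D.d ≤ D.Lc ∧ |D.c o - (D.geo (D.G o)).tc| ≤ Kf * D.ε ^ (D.r + D.d) ∧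
    InRect Kf D.ε (D.geo (D.G o)).b (D.geo (D.G o)).a (D.geo (D.G o)).th (toP (D.V (D.Tt o)) - (D.geo (D.G o)).vc) ∧
    InRect Kf D.ε ((D.geo (D.G o)).b + (D.r + D.d)) ((D.geo (D.G o)).a + (D.r + D.d)) (D.geo (D.G o)).th
      (toP (D.X (D.Tt o) + ((D.geo (D.G o)).tc - D.Cr) • D.V (D.Tt o)) - (D.geo (D.G o)).xc)
  cap : ∀ F : Geo, D.bs ≤ F.b → F.b ≤ F.a → F.a ≤ D.Lc + D.bs →
    ((D.S.filter (fun k => InRect 1 D.ε F.b F.a F.th (toP (D.V k) - F.vc) ∧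
      InRect 1 D.ε (F.b + D.r) (F.a + D.r) F.th (toP (D.X k) - F.xc))).card : ℝ)
      ≤ D.ε ^ (-(gg - (wt γ F - 2 * D.bs)))

/-- the classical system in the local coordinates -/
noncomputable def sys : CSys where
  Ω := D.Ω
  fin := D.fin
  P := D.Q
  ι := D.κ
  T := D.Tt
  V := fun k => (D.ε ^ D.bs)⁻¹ • toP (D.V k - D.VJ)
  A := fun k => (D.ε ^ D.r * D.ε ^ D.bs)⁻¹ • toP (D.X k - D.XJ)
  c := fun o => (D.c o - D.Cr) / D.ε ^ D.r

/-- the read-out in the local coordinates -/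
noncomputable def lgeo : D.Γ → Geo := fun g => gresc (D.geo g) D.ε D.r D.bs D.Cr D.VJ D.XJ

end KlData

/-! ### KL-A : exact scaling -/

/-- rectangles scale exactly -/
theorem kl_inRect_smul {ε : ℝ} (hε : 0 < ε) (K b a th c : ℝ) (z : ℝ × ℝ) :
    InRect K ε (b - c) (a - c) th ((ε ^ c)⁻¹ • z) ↔ InRect K ε b a th z := by
  have hc : 0 < ε ^ c := Real.rpow_pos_of_pos hε c
  unfold InRect
  rw [tl_ip_smul, tl_ip_smul, abs_mul, abs_mul, abs_of_pos (inv_pos.2 hc), Real.rpow_sub hε, Real.rpow_sub hε,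
    ← mul_div_assoc, ← mul_div_assoc, inv_mul_eq_div, inv_mul_eq_div, div_le_div_iff_of_pos_right hc,
    div_le_div_iff_of_pos_right hc]

/-- PLAN: unfold `CSys.IsLabel`, `Geo.Compat`, `gresc`, `KlData.sys`;  `V' - vc' = (ε^bs)⁻¹ • (toP V - vc)`,  `A' + tc' • V' - xc' = (ε^r ε^bs)⁻¹ • (toP (X + (tc - C_r) V) - xc)`;
`InRect K ε (b - s) (a - s) th ((ε^s)⁻¹ • z) ↔ InRect K ε b a th z` (`Real.rpow_sub`, `ip` is linear; cf. `pk_resc_geo` in `Pk/Resc.lean`);  `|c' - tc'| = |c - tc| / ε^r`, `ε^(r+d) = ε^r ε^d`. -/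
theorem kl_label (D : KlData) (γ Kf Bc : ℝ) (Mu : ℕ) (gg : ℝ) (hε : 0 < D.ε) (H : D.Hyp γ Kf Bc Mu gg) :
    D.sys.IsLabel Kf D.ε D.d D.Lc D.G D.lgeo := by
  intro o ho
  obtain ⟨f1, f2, f3, f4, f5, f6⟩ := H.faith o ho
  have h1 : 0 < D.ε ^ D.r := Real.rpow_pos_of_pos hε _
  have h2 : 0 < D.ε ^ D.bs := Real.rpow_pos_of_pos hε _
  have eV : D.sys.V (D.sys.T o) - (D.lgeo (D.G o)).vc
      = (D.ε ^ D.bs)⁻¹ • (toP (D.V (D.Tt o)) - (D.geo (D.G o)).vc) := by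
    show (D.ε ^ D.bs)⁻¹ • (toP (D.V (D.Tt o)) - toP D.VJ) - (D.ε ^ D.bs)⁻¹ • ((D.geo (D.G o)).vc - toP D.VJ) = _
    rw [← smul_sub]
    congr 1
    abel
  have eX : D.sys.A (D.sys.T o) + (D.lgeo (D.G o)).tc • D.sys.V (D.sys.T o) - (D.lgeo (D.G o)).xc
      = (D.ε ^ (D.r + D.bs))⁻¹ • (toP (D.X (D.Tt o) + ((D.geo (D.G o)).tc - D.Cr) • D.V (D.Tt o)) - (D.geo (D.G o)).xc) := by
    show (D.ε ^ D.r * D.ε ^ D.bs)⁻¹ • (toP (D.X (D.Tt o)) - toP D.XJ)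
        + (((D.geo (D.G o)).tc - D.Cr) / D.ε ^ D.r) • ((D.ε ^ D.bs)⁻¹ • (toP (D.V (D.Tt o)) - toP D.VJ))
        - (D.ε ^ D.r * D.ε ^ D.bs)⁻¹ • ((D.geo (D.G o)).xc - toP D.XJ - ((D.geo (D.G o)).tc - D.Cr) • toP D.VJ)
      = (D.ε ^ (D.r + D.bs))⁻¹ • (toP (D.X (D.Tt o)) + ((D.geo (D.G o)).tc - D.Cr) • toP (D.V (D.Tt o)) - (D.geo (D.G o)).xc)
    rw [Real.rpow_add hε]
    have e1 : (((D.geo (D.G o)).tc - D.Cr) / D.ε ^ D.r) • ((D.ε ^ D.bs)⁻¹ • (toP (D.V (D.Tt o)) - toP D.VJ))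
        = (D.ε ^ D.r * D.ε ^ D.bs)⁻¹ • (((D.geo (D.G o)).tc - D.Cr) • (toP (D.V (D.Tt o)) - toP D.VJ)) := by
      rw [smul_smul, smul_smul]
      congr 1
      field_simp
    rw [e1, ← smul_add, ← smul_sub]
    congr 1
    rw [smul_sub]
    abel
  refine ⟨?_, ?_, f3, ?_, ?_, ?_⟩
  · show 0 ≤ (D.geo (D.G o)).b - D.bs
    linarith
  · show (D.geo (D.G o)).b - D.bs ≤ (D.geo (D.G o)).a - D.bs
    linarith
  · show |(D.c o - D.Cr) / D.ε ^ D.r - ((D.geo (D.G o)).tc - D.Cr) / D.ε ^ D.r| ≤ Kf * D.ε ^ D.d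
    rw [← sub_div, abs_div, abs_of_pos h1, div_le_iff₀ h1]
    rw [Real.rpow_add hε] at f4
    have e : D.c o - D.Cr - ((D.geo (D.G o)).tc - D.Cr) = D.c o - (D.geo (D.G o)).tc := by ring
    rw [e]
    linarith
  · rw [eV]
    exact (kl_inRect_smul hε _ _ _ _ _ _).2 f5
  · rw [eX]
    show InRect Kf D.ε ((D.geo (D.G o)).b - D.bs + D.d) ((D.geo (D.G o)).a - D.bs + D.d) (D.geo (D.G o)).th _
    rw [show (D.geo (D.G o)).b - D.bs + D.d = (D.geo (D.G o)).b + (D.r + D.d) - (D.r + D.bs) by ring,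
      show (D.geo (D.G o)).a - D.bs + D.d = (D.geo (D.G o)).a + (D.r + D.d) - (D.r + D.bs) by ring]
    exact (kl_inRect_smul hε _ _ _ _ _ _).2 f6

/-- PLAN: `|x 0|, |x 1| ≤ ‖x‖` on `E2` (`EuclideanSpace.norm_eq`, `PiLp.norm_apply_le`); `0 ≤ c' < 1`. -/
theorem kl_bdd (D : KlData) (γ Kf Bc : ℝ) (Mu : ℕ) (gg : ℝ) (hε : 0 < D.ε) (H : D.Hyp γ Kf Bc Mu gg) :
    D.sys.Bdd (max Bc 1) := by
  intro o ho
  have hk := H.mem o ho
  have h1 : 0 < D.ε ^ D.r := Real.rpow_pos_of_pos hε _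
  have h2 : 0 < D.ε ^ D.bs := Real.rpow_pos_of_pos hε _
  have hV := H.nearV _ hk
  have hX := H.nearX _ hk
  have hc := H.time o ho
  have hcoord : ∀ (x : E2) (i : Fin 2), |x i| ≤ ‖x‖ := fun x i => by
    have := PiLp.norm_apply_le x i
    simpa using this
  have key : ∀ (s : ℝ), 0 < s → ∀ (x : E2) (i : Fin 2), ‖x‖ ≤ Bc * s → |s⁻¹ * x i| ≤ max Bc 1 := by
    intro s hs x i hx
    rw [abs_mul, abs_of_pos (inv_pos.2 hs), inv_mul_le_iff₀ hs]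
    calc |x i| ≤ ‖x‖ := hcoord x i
      _ ≤ Bc * s := hx
      _ ≤ s * max Bc 1 := by
        rw [mul_comm]
        exact mul_le_mul_of_nonneg_left (le_max_left _ _) hs.le
  refine ⟨key _ h2 _ 0 hV, key _ h2 _ 1 hV, key _ (mul_pos h1 h2) _ 0 hX, key _ (mul_pos h1 h2) _ 1 hX, ?_⟩
  show |(D.c o - D.Cr) / D.ε ^ D.r| ≤ max Bc 1
  rw [abs_of_nonneg (div_nonneg (by linarith) h1.le)]
  refine le_trans ?_ (le_max_right _ _)
  rw [div_le_one h1]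
  linarith

theorem kl_wt (D : KlData) (γ : ℝ) (g : D.Γ) : wt γ (D.lgeo g) = wt γ (D.geo g) - 2 * D.bs := by
  unfold KlData.lgeo gresc wt
  ring

/-! ### KL-B : the root supremum -/

/-- PLAN: `csSup_le` (`tl_tau_nonempty`).  For a competitor `(Ω', P', T', D', geo')`:  `x = E w - H(T')/ℓ + H(T'|D')/ℓ` (`ent_mi_eq`);   `H(T') = H(T)` (equal marginals: `ent_eq_sum` over `D.S`, or `ent_gibbs` twice);
`T' ∈ D.S` on the support (its marginal is that of `T`);   `p9_entC_le_card` with `S(δ) = {k ∈ D.S | k in the cap of geo' δ}`;   the local root cap `g' = geo' δ` is the absolute cap `F = gunresc`-type read-out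
`(g'.b + bs, g'.a + bs, th, toP V_J + ε^bs • g'.vc, toP X_J + (ε^r ε^bs) • g'.xc)`, `w(F) - 2 bs = w(g')`;   `H.cap F` and `Real.log (ε^(-y)) = y ℓ` give `log #S(δ) ≤ (gg - w(g')) ℓ`
(if the set is empty on the support there is nothing to prove: it contains `T'`). -/
theorem kl_tau (D : KlData) (γ Kf Bc : ℝ) (Mu : ℕ) (gg : ℝ) (h0 : 0 < γ) (h1 : γ < 1) (hε : 0 < D.ε) (hε1 : D.ε < 1)
    (hL : 0 ≤ D.Lc) (H : D.Hyp γ Kf Bc Mu gg) :
    D.sys.tau γ D.ε D.Lc ≤ gg - D.Q.ent D.Tt / lg D.ε := by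
  have hl : 0 < lg D.ε := tl_tau_lg_pos hε hε1
  have h1r : 0 < D.ε ^ D.r := Real.rpow_pos_of_pos hε _
  have h2b : 0 < D.ε ^ D.bs := Real.rpow_pos_of_pos hε _
  refine csSup_le (tl_tau_nonempty D.sys (max Bc 1) γ D.ε D.Lc (kl_bdd D γ Kf Bc Mu gg hε H) hε hε1 hL) ?_
  rintro x ⟨Ω', f', P', T', Γ', D', geo', hmarg, hcomp, rfl⟩
  have hpQ : ∀ o, D.Q.p o ≠ 0 → 0 < D.Q.p o := fun o ho => lt_of_le_of_ne (D.Q.nonneg o) (Ne.symm ho)
  have hpP : ∀ o, P'.p o ≠ 0 → 0 < P'.p o := fun o ho => lt_of_le_of_ne (P'.nonneg o) (Ne.symm ho)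
  -- `T'` lies in the population
  have hmem : ∀ ω, P'.p ω ≠ 0 → T' ω ∈ D.S := by
    intro ω hω
    have h3 : 0 < P'.pr (fun ω' => T' ω' = T' ω) := ent_fib_pos P' T' hω
    rw [hmarg] at h3
    obtain ⟨o, ho, hp⟩ := (ent_pr_pos_iff _ _).1 h3
    have h4 : D.Tt o = T' ω := ho
    rw [← h4]
    exact H.mem o (hpQ o hp)
  have hent : P'.ent T' = D.Q.ent D.Tt := by
    rw [ent_eq_sum P' T' D.S hmem, ent_eq_sum D.Q D.Tt D.S (fun o ho => H.mem o (hpQ o ho))]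
    refine Finset.sum_congr rfl fun k _ => ?_
    rw [hmarg]
    rfl
  -- the absolute cap of a local root cap
  obtain ⟨F, hF⟩ : ∃ F : Geo → Geo, F = fun g' => ⟨g'.b + D.bs, g'.a + D.bs, 0, g'.th, toP D.VJ + D.ε ^ D.bs • g'.vc,
    toP D.XJ + (D.ε ^ D.r * D.ε ^ D.bs) • g'.xc⟩ := ⟨_, rfl⟩
  obtain ⟨SS, hSSdef⟩ : ∃ SS : Γ' → Finset D.κ, SS = fun δ => D.S.filter (fun k =>
      InRect 1 D.ε (F (geo' δ)).b (F (geo' δ)).a (F (geo' δ)).th (toP (D.V k) - (F (geo' δ)).vc) ∧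
      InRect 1 D.ε ((F (geo' δ)).b + D.r) ((F (geo' δ)).a + D.r) (F (geo' δ)).th (toP (D.X k) - (F (geo' δ)).xc)) :=
    ⟨_, rfl⟩
  have hSS : ∀ ω, P'.p ω ≠ 0 → T' ω ∈ SS (D' ω) := by
    intro ω hω
    obtain ⟨c1, c2, c3, c4, c5⟩ := hcomp ω (hpP ω hω)
    rw [hSSdef]
    refine Finset.mem_filter.2 ⟨hmem ω hω, ?_, ?_⟩
    · have e : D.sys.V (T' ω) - (geo' (D' ω)).vc = (D.ε ^ D.bs)⁻¹ • (toP (D.V (T' ω)) - (F (geo' (D' ω))).vc) := by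
        rw [hF]
        show (D.ε ^ D.bs)⁻¹ • (toP (D.V (T' ω)) - toP D.VJ) - (geo' (D' ω)).vc
          = (D.ε ^ D.bs)⁻¹ • (toP (D.V (T' ω)) - (toP D.VJ + D.ε ^ D.bs • (geo' (D' ω)).vc))
        rw [← sub_sub, smul_sub _ (toP (D.V (T' ω)) - toP D.VJ), smul_smul, inv_mul_cancel₀ h2b.ne', one_smul]
      rw [e] at c4
      have e1 : (geo' (D' ω)).b = (F (geo' (D' ω))).b - D.bs := by rw [hF]; simp
      have e2 : (geo' (D' ω)).a = (F (geo' (D' ω))).a - D.bs := by rw [hF]; simp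
      have e3 : (geo' (D' ω)).th = (F (geo' (D' ω))).th := by rw [hF]
      rw [e1, e2, e3] at c4
      exact (kl_inRect_smul hε _ _ _ _ _ _).1 c4
    · have e : D.sys.A (T' ω) - (geo' (D' ω)).xc
          = (D.ε ^ (D.r + D.bs))⁻¹ • (toP (D.X (T' ω)) - (F (geo' (D' ω))).xc) := by
        rw [hF, Real.rpow_add hε]
        show (D.ε ^ D.r * D.ε ^ D.bs)⁻¹ • (toP (D.X (T' ω)) - toP D.XJ) - (geo' (D' ω)).xc
          = (D.ε ^ D.r * D.ε ^ D.bs)⁻¹ • (toP (D.X (T' ω)) - (toP D.XJ + (D.ε ^ D.r * D.ε ^ D.bs) • (geo' (D' ω)).xc))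
        rw [← sub_sub, smul_sub _ (toP (D.X (T' ω)) - toP D.XJ), smul_smul,
          inv_mul_cancel₀ (mul_pos h1r h2b).ne', one_smul]
      rw [e] at c5
      have e1 : (geo' (D' ω)).b = (F (geo' (D' ω))).b + D.r - (D.r + D.bs) := by rw [hF]; simp; ring
      have e2 : (geo' (D' ω)).a = (F (geo' (D' ω))).a + D.r - (D.r + D.bs) := by rw [hF]; simp; ring
      have e3 : (geo' (D' ω)).th = (F (geo' (D' ω))).th := by rw [hF]
      rw [e1, e2, e3] at c5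
      exact (kl_inRect_smul hε _ _ _ _ _ _).1 c5
  have hcard := p9_entC_le_card P' T' D' SS hSS
  have hlog : ∀ ω, P'.p ω ≠ 0 → Real.log ((SS (D' ω)).card : ℝ) ≤ (gg - wt γ (geo' (D' ω))) * lg D.ε := by
    intro ω hω
    obtain ⟨c1, c2, c3, c4, c5⟩ := hcomp ω (hpP ω hω)
    have hcap := H.cap (F (geo' (D' ω))) (by rw [hF]; simp; exact c1) (by rw [hF]; simp; exact c2)
      (by rw [hF]; simp; exact c3)
    have hw : wt γ (F (geo' (D' ω))) - 2 * D.bs = wt γ (geo' (D' ω)) := by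
      rw [hF]
      unfold wt
      ring
    rw [hw] at hcap
    have hpos : (0 : ℝ) < ((SS (D' ω)).card : ℝ) := by
      exact_mod_cast Finset.card_pos.2 ⟨_, hSS ω hω⟩
    have hcap' : ((SS (D' ω)).card : ℝ) ≤ D.ε ^ (-(gg - wt γ (geo' (D' ω)))) := by
      rw [hSSdef]
      exact hcap
    refine (Real.log_le_log hpos hcap').trans (le_of_eq ?_)
    rw [Real.log_rpow hε]
    unfold lg
    rw [one_div, Real.log_inv]
    ring
  have hE : P'.ev (fun ω => Real.log ((SS (D' ω)).card : ℝ))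
      ≤ (gg - P'.ev (fun ω => wt γ (geo' (D' ω)))) * lg D.ε := by
    refine (ent_ev_mono P' hlog).trans (le_of_eq ?_)
    have e : (fun ω => (gg - wt γ (geo' (D' ω))) * lg D.ε)
        = fun ω => lg D.ε * gg - lg D.ε * wt γ (geo' (D' ω)) := by
      funext ω
      ring
    rw [e, ent_ev_sub, ent_ev_const, ent_ev_mul_left]
    ring
  rw [ent_mi_eq, hent]
  have h5 : P'.entC T' D' / lg D.ε ≤ gg - P'.ev (fun ω => wt γ (geo' (D' ω))) := by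
    rw [div_le_iff₀ hl]
    exact hcard.trans hE
  have e6 : (D.Q.ent D.Tt - P'.entC T' D') / lg D.ε = D.Q.ent D.Tt / lg D.ε - P'.entC T' D' / lg D.ε := by ring
  rw [e6]
  linarith

/-! ### KL-C : anchors and dyadic time cells -/

/-- PLAN: `H(c | T) ≤ H(c, cell | T) = H(cell | T) + H(c | cell, T) ≤ H(cell | T) + log Mu`  (`ent_entC_chain`, `ent_entC_le_log_nval`):
two anchors with the same `tcell ε d ((c - C_r)/ε^r)` differ by `< ε^r · 2^(-tlev ε d) ≤ ε^r ε^d` (`ig_msh_le` of `Iso/Grid.lean`, or directly `tlev`), so they are among the `≤ Mu` anchors of `H.multT`. -/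
theorem kl_time (D : KlData) (γ Kf Bc : ℝ) (Mu : ℕ) (gg : ℝ) (hε : 0 < D.ε) (hε1 : D.ε < 1) (hd : 0 ≤ D.d)
    (H : D.Hyp γ Kf Bc Mu gg) :
    D.Q.entC D.c D.Tt ≤ D.Q.entC (D.sys.Ct D.ε D.d) D.Tt + Real.log Mu := by
  have h1r : 0 < D.ε ^ D.r := Real.rpow_pos_of_pos hε _
  have hpQ : ∀ o, D.Q.p o ≠ 0 → 0 < D.Q.p o := fun o ho => lt_of_le_of_ne (D.Q.nonneg o) (Ne.symm ho)
  have s1 : D.Q.entC D.c D.Tt ≤ D.Q.entC (FLaw.pair (D.sys.Ct D.ε D.d) D.c) D.Tt :=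
    ent_entC_mono D.Q _ _ _ fun ω ω' _ _ h _ => congrArg Prod.snd h
  have s2 := ent_entC_chain D.Q (D.sys.Ct D.ε D.d) D.c D.Tt
  have s3 : D.Q.entC D.c (FLaw.pair (D.sys.Ct D.ε D.d) D.Tt) ≤ Real.log Mu := by
    apply ent_entC_le_log_nval
    intro ω₀
    by_cases hex : ∃ ω₁, D.Q.p ω₁ ≠ 0 ∧ FLaw.pair (D.sys.Ct D.ε D.d) D.Tt ω₁ = FLaw.pair (D.sys.Ct D.ε D.d) D.Tt ω₀
    · obtain ⟨ω₁, hω₁, hA⟩ := hex
      refine ⟨((Finset.univ.filter (fun o' => 0 < D.Q.p o')).image D.c).filter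
        (fun x => |x - D.c ω₁| < D.ε ^ (D.r + D.d)), by exact_mod_cast H.multT ω₁ (hpQ ω₁ hω₁), ?_⟩
      intro ω hω _ hAω
      refine Finset.mem_filter.2 ⟨Finset.mem_image.2 ⟨ω, Finset.mem_filter.2 ⟨Finset.mem_univ _, hpQ ω hω⟩, rfl⟩, ?_⟩
      have hcell : tcell D.ε D.d ((D.c ω - D.Cr) / D.ε ^ D.r) = tcell D.ε D.d ((D.c ω₁ - D.Cr) / D.ε ^ D.r) :=
        congrArg Prod.fst (hAω.trans hA.symm)
      have hW : (0 : ℝ) < 2 ^ (tlev D.ε D.d) := by positivity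
      have hge := tl_cellw_ge hε D.d
      unfold tcell at hcell
      have a1 := Int.floor_le ((D.c ω - D.Cr) / D.ε ^ D.r * 2 ^ (tlev D.ε D.d))
      have a2 := Int.lt_floor_add_one ((D.c ω - D.Cr) / D.ε ^ D.r * 2 ^ (tlev D.ε D.d))
      have b1 := Int.floor_le ((D.c ω₁ - D.Cr) / D.ε ^ D.r * 2 ^ (tlev D.ε D.d))
      have b2 := Int.lt_floor_add_one ((D.c ω₁ - D.Cr) / D.ε ^ D.r * 2 ^ (tlev D.ε D.d))
      rw [hcell] at a1 a2
      have hdiff : |(D.c ω - D.c ω₁) / D.ε ^ D.r * 2 ^ (tlev D.ε D.d)| < 1 := by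
        have e : (D.c ω - D.c ω₁) / D.ε ^ D.r * 2 ^ (tlev D.ε D.d)
            = (D.c ω - D.Cr) / D.ε ^ D.r * 2 ^ (tlev D.ε D.d) - (D.c ω₁ - D.Cr) / D.ε ^ D.r * 2 ^ (tlev D.ε D.d) := by
          ring
        rw [e, abs_lt]
        constructor <;> linarith
      rw [abs_mul, abs_div, abs_of_pos h1r, abs_of_pos hW] at hdiff
      rw [Real.rpow_add hε]
      have hd' : 0 < D.ε ^ D.d := Real.rpow_pos_of_pos hε _
      have h6 : |D.c ω - D.c ω₁| / D.ε ^ D.r < D.ε ^ D.d := by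
        by_contra hcon
        rw [not_lt] at hcon
        have := mul_le_mul_of_nonneg_right hcon hW.le
        linarith
      rw [div_lt_iff₀ h1r] at h6
      linarith
    · refine ⟨∅, by simp, ?_⟩
      intro ω hω _ hAω
      exact absurd ⟨ω, hω, hAω⟩ hex
  linarith

/-! ### the assembly -/

/-- **THE CLASSICAL INTERFACE** -/
theorem kl_growth (γ : ℝ) (h0 : 0 < γ) (h1 : γ < 1) (hcl : UnivBound γ γ) (Kf Bc Lmax dmin ν : ℝ) (Mu : ℕ)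
    (hd : 0 < dmin) (hν : 0 < ν) :
    ∃ ε₀ : ℝ, 0 < ε₀ ∧ ε₀ < 1 ∧ ∀ (D : KlData) (gg : ℝ), 0 < D.ε → D.ε < ε₀ → dmin ≤ D.d → D.d ≤ D.Lc → D.Lc ≤ Lmax →
      D.Hyp γ Kf Bc Mu gg →
      D.Q.ev (fun o => wt γ (D.geo (D.G o)) - 2 * D.bs) + (D.Q.entC D.Tt D.G + 2 * D.Q.entC D.c D.Tt) / lg D.ε
        ≤ gg + γ * D.d + ν := by
  obtain ⟨ε₁, e10, e11, H1⟩ := hcl Kf (max Bc 1) Lmax dmin (ν / 2) hd (by positivity)
  obtain ⟨ε₂, e20, e21, H2⟩ := tl_div_lg_le (2 * Real.log Mu) (ν := ν / 2) (by positivity)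
  refine ⟨min ε₁ ε₂, lt_min e10 e20, lt_of_le_of_lt (min_le_left _ _) e11, ?_⟩
  intro D gg hε hεlt hdm hdL hLm H
  have hε1 : D.ε < 1 := lt_trans (lt_of_lt_of_le hεlt (min_le_left _ _)) e11
  have hl : 0 < lg D.ε := tl_tau_lg_pos hε hε1
  have hd0 : 0 ≤ D.d := le_trans hd.le hdm
  have hsc := H1 D.ε hε (lt_of_lt_of_le hεlt (min_le_left _ _)) D.d D.Lc hdm hdL hLm D.sys D.Γ D.G D.lgeo
    (kl_bdd D γ Kf Bc Mu gg hε H) (kl_label D γ Kf Bc Mu gg hε H)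
  have htau := kl_tau D γ Kf Bc Mu gg h0 h1 hε hε1 (le_trans hd0 hdL) H
  have htime := kl_time D γ Kf Bc Mu gg hε hε1 hd0 H
  have hsmall := H2 D.ε hε (lt_of_lt_of_le hεlt (min_le_right _ _))
  -- unfold the classical score
  have hscore : D.sys.score γ D.ε D.d D.G D.lgeo
      = D.Q.ev (fun o => wt γ (D.geo (D.G o)) - 2 * D.bs) - (D.Q.ent D.Tt - D.Q.entC D.Tt D.G) / lg D.ε
        + 2 * (D.Q.entC (D.sys.Ct D.ε D.d) D.Tt / lg D.ε) := by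
    unfold CSys.score CSys.St
    have e1 : D.sys.P.ev (fun ω => wt γ (D.lgeo (D.G ω))) = D.Q.ev (fun o => wt γ (D.geo (D.G o)) - 2 * D.bs) := by
      show D.Q.ev (fun ω => wt γ (D.lgeo (D.G ω))) = _
      congr 1
      funext o
      exact kl_wt D γ _
    have e2 : D.sys.P.mi D.sys.T D.G = D.Q.ent D.Tt - D.Q.entC D.Tt D.G := ent_mi_eq D.Q D.Tt D.G
    rw [e1, e2]
    rfl
  rw [hscore] at hsc
  have h3 : D.Q.entC D.c D.Tt / lg D.ε ≤ D.Q.entC (D.sys.Ct D.ε D.d) D.Tt / lg D.ε + Real.log Mu / lg D.ε := by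
    rw [← add_div]
    exact div_le_div_of_nonneg_right htime hl.le
  have h4 : 2 * Real.log Mu / lg D.ε ≤ ν / 2 := hsmall
  have e5 : (D.Q.entC D.Tt D.G + 2 * D.Q.entC D.c D.Tt) / lg D.ε
      = D.Q.entC D.Tt D.G / lg D.ε + 2 * (D.Q.entC D.c D.Tt / lg D.ε) := by ring
  have e6 : (D.Q.ent D.Tt - D.Q.entC D.Tt D.G) / lg D.ε = D.Q.ent D.Tt / lg D.ε - D.Q.entC D.Tt D.G / lg D.ε := by ring
  have e7 : 2 * Real.log Mu / lg D.ε = 2 * (Real.log Mu / lg D.ε) := by ring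
  rw [e5]
  rw [e6] at hsc
  rw [e7] at h4
  linarith

end Claimed.Agent.R255.Pkt
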