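import Claimed.Agent.R255.Osc.Contract
import Claimed.Agent.R255.Base.Classical

/-!
# R255 / Pkt / Base : THE PACKET VOCABULARY (BR paper, Sec. 9.1)        (architect helper207)   -- KEEP

FROZEN DEFINITIONS for Secs. 9-12.   Conventions (decisions D1-D8 of helper207, they DIFFER from the paper where this makes life easier):
* FINITE formalism, no ultrafilter, no sequences: `PRate γ β` = "the packet growth rate is at most `β`", uniformly over every bound package `PBd`.
* an ENVIRONMENT `PEnv` = `(ε, H, L, Φ, ζ, f)` (`H` = Planck depth, `λ = ε^(-H)`, `L` = horizon, `f` = input);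
  a TEST `PTest` at duration `t` = finite family of SITES `site : ι → Site`, finite law `P` on `Ω`, observation `O : Ω → ι`, aperture label `D : Ω → Γ` with read-out `geo : Γ → Geo`.
  Many tests (different times) live on one environment; local systems = rescaled environments `PEnv.resc`.
* a SITE `(C, V, X, ψ)` carries its own amplitude.  NO lattices, NO dyadic rounding: the families are arbitrary finite families with the multiplicity bounds `multT`, `multS`
  (all conditions only concern the ACTIVE sites `T.act`, i.e. those charged by the law);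
  all scales are exact real powers of `ε`.  "Supremum masses" of the paper = choice of an amplitude at each site.
* ROOT TIME `C = 0` (paper: `1/2`).  Time cell of depth `r` of an anchor `c` : `[k ε^r, (k+1) ε^r)`, representative `tanchor ε r c = ε^r ⌊c / ε^r⌋` (LEFT end point).
* CANONICAL ROOT CLASS `CanC M` : smooth, supported in the ball of radius `100`, derivatives of order `≤ M` bounded by `1`.  `M` is part of the bound package.
  `K0 γ M E` is nonincreasing in `M`.  No position cut-off, root families are SEPARATED (multiplicity one), root apertures have enlargement constant `1`.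
* vectors: `E2 = EuclideanSpace ℝ (Fin 2)`; the read-out `Geo` (of `Base/Classical`) uses `ℝ × ℝ`, bridge `toP`.
-/

set_option autoImplicit false

namespace Claimed.Agent.R255.Pkt

open MeasureTheory Claimed.Agent.R255.Osc
open scoped ContDiff InnerProductSpace BigOperators
open Classical

/-- bridge `E2 → ℝ × ℝ` -/
def toP (x : E2) : ℝ × ℝ := (x 0, x 1)

/-- a packet site: time anchor, velocity centre, position centre, amplitude -/
structure Site where
  C : ℝ
  V : E2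
  X : E2
  ψ : E2 → ℂ

/-- the analysis pairing `ρ⁻¹ ∫ f(v) ψ((v - V)/ρ) e^{i λ Φ(C,X,v)} dv`      (9.4) -/
noncomputable def pairing (lam ρ : ℝ) (Φ : ℝ → E2 → E2 → ℝ) (f : E2 → ℂ) (s : Site) : ℂ :=
  ((ρ⁻¹ : ℝ) : ℂ) * ∫ v : E2, f v * s.ψ (ρ⁻¹ • (v - s.V)) * Complex.exp (Complex.I * ((lam * Φ s.C s.X v : ℝ) : ℂ))

/-- the packet mass `m_O(f)`      (9.4) -/
noncomputable def mass (lam ρ : ℝ) (Φ : ℝ → E2 → E2 → ℝ) (f : E2 → ℂ) (s : Site) : ℝ :=
  ‖pairing lam ρ Φ f s‖ ^ 2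

/-- the normalised synthesis packet `g_T(v) = ρ⁻¹ ψ((v - V)/ρ) e^{- i λ Φ(C,X,v)}`      (9.12) -/
noncomputable def atom (lam ρ : ℝ) (Φ : ℝ → E2 → E2 → ℝ) (s : Site) (v : E2) : ℂ :=
  ((ρ⁻¹ : ℝ) : ℂ) * s.ψ (ρ⁻¹ • (v - s.V)) * Complex.exp (- (Complex.I * ((lam * Φ s.C s.X v : ℝ) : ℂ)))

/-- amplitude class: smooth, supported in the ball of radius `R`, derivative of order `j` bounded by `Bd j` -/
structure AmpC (R : ℝ) (Bd : ℕ → ℝ) (ψ : E2 → ℂ) : Prop where
  smooth : ContDiff ℝ ∞ ψ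
  supp : ∀ z, ψ z ≠ 0 → ‖z‖ ≤ R
  bound : ∀ (j : ℕ) (z : E2), ‖iteratedFDeriv ℝ j ψ z‖ ≤ Bd j

/-- the canonical root class of order `M` -/
structure CanC (M : ℕ) (ψ : E2 → ℂ) : Prop where
  smooth : ContDiff ℝ ∞ ψ
  supp : ∀ z, ψ z ≠ 0 → ‖z‖ ≤ 100
  bound : ∀ j : ℕ, j ≤ M → ∀ z : E2, ‖iteratedFDeriv ℝ j ψ z‖ ≤ 1

/-- representative (left end point) of the time cell of depth `r` containing `c` -/
noncomputable def tanchor (ε r c : ℝ) : ℝ := ε ^ r * (⌊c / ε ^ r⌋ : ℝ)

/-- an environment: precision, Planck depth, horizon, phase, input -/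
structure PEnv where
  ε : ℝ
  H : ℝ
  L : ℝ
  Φ : ℝ → E2 → E2 → ℝ
  ζ : E2 → E2 → E2
  f : E2 → ℂ

namespace PEnv

variable (E : PEnv)

/-- `λ = ε^(-H)` -/
noncomputable def lam : ℝ := E.ε ^ (-E.H)
/-- `u_t = (H - t)/2` -/
noncomputable def u (t : ℝ) : ℝ := (E.H - t) / 2
/-- `ρ_t = ε^(u_t)` -/
noncomputable def rho (t : ℝ) : ℝ := E.ε ^ (E.u t)
/-- `σ_t = ε^(u_t + t)` -/
noncomputable def sig (t : ℝ) : ℝ := E.ε ^ (E.u t + t)
/-- the mass of a site of depth `t` -/
noncomputable def m (t : ℝ) (s : Site) : ℝ := mass E.lam (E.rho t) E.Φ E.f s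
/-- `‖f‖₂²` -/
noncomputable def nrm2 : ℝ := ∫ v : E2, ‖E.f v‖ ^ 2
/-- the same environment with another input -/
def withInput (h : E2 → ℂ) : PEnv := { E with f := h }

/-- the rescaled phase (9.10), root time `0` : `Φ'(c',x',v') = [Φ(c,x,v) - Φ(C_r,X_J,v)] / (s_c s_v²)` with
`v = V_J + s_v v'`, `c = C_r + s_c c'`, `x = X_J + (c - C_r) V_J + s_c s_v x'`, `s_v = ε^bs`, `s_c = ε^r` -/
noncomputable def rescΦ (r bs Cr : ℝ) (VJ XJ : E2) : ℝ → E2 → E2 → ℝ := fun c' x' v' =>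
  (E.Φ (Cr + E.ε ^ r * c') (XJ + (E.ε ^ r * c') • VJ + (E.ε ^ r * E.ε ^ bs) • x') (VJ + E.ε ^ bs • v')
    - E.Φ Cr XJ (VJ + E.ε ^ bs • v')) / (E.ε ^ r * (E.ε ^ bs) ^ 2)

/-- the rescaled gradient function (9.10) -/
noncomputable def rescζ (r bs Cr : ℝ) (VJ XJ : E2) : E2 → E2 → E2 := fun v' p' =>
  (E.ε ^ r * E.ε ^ bs)⁻¹ •
    (E.ζ (VJ + E.ε ^ bs • v') (XJ - Cr • (VJ + E.ε ^ bs • v') + (E.ε ^ r * E.ε ^ bs) • p')
      - E.ζ (VJ + E.ε ^ bs • v') (XJ - Cr • (VJ + E.ε ^ bs • v')))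

/-- the rescaled input (9.11) of an input `h` -/
noncomputable def rescIn (bs Cr : ℝ) (VJ XJ : E2) (h : E2 → ℂ) : E2 → ℂ := fun v' =>
  ((E.ε ^ bs : ℝ) : ℂ) * h (VJ + E.ε ^ bs • v') *
    Complex.exp (Complex.I * ((E.lam * E.Φ Cr XJ (VJ + E.ε ^ bs • v') : ℝ) : ℂ))

/-- the local environment at the localizer `(C_r, V_J, X_J)`, cut time `r`, velocity depth `bs = b_*`, with local input `h` (in the ORIGINAL coordinates) -/
noncomputable def resc (r bs Cr : ℝ) (VJ XJ : E2) (h : E2 → ℂ) : PEnv where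
  ε := E.ε
  H := E.H - r - 2 * bs
  L := E.L - r - bs
  Φ := E.rescΦ r bs Cr VJ XJ
  ζ := E.rescζ r bs Cr VJ XJ
  f := E.rescIn bs Cr VJ XJ h

end PEnv

/-- the image of a site in the local coordinates -/
noncomputable def Site.resc (s : Site) (ε r bs Cr : ℝ) (VJ XJ : E2) : Site where
  C := (s.C - Cr) / ε ^ r
  V := (ε ^ bs)⁻¹ • (s.V - VJ)
  X := (ε ^ r * ε ^ bs)⁻¹ • (s.X - XJ - (s.C - Cr) • VJ)
  ψ := s.ψ

/-- a test: finite site family, finite law, observation, aperture label with geometric read-out -/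
structure PTest where
  t : ℝ
  Ω : Type
  finΩ : Fintype Ω
  P : @FLaw Ω finΩ
  ι : Type
  finι : Fintype ι
  site : ι → Site
  O : Ω → ι
  Γ : Type
  D : Ω → Γ
  geo : Γ → Geo

attribute [instance] PTest.finΩ PTest.finι

/-- compatibility of an aperture read-out with a site: (9.5) and Definition 4.1; `K` = enlargement constant, `u = u_t` -/
def GeoOK (g : Geo) (K ε t L u : ℝ) (s : Site) : Prop :=
  0 ≤ g.b ∧ g.b ≤ g.a ∧ g.a ≤ L - t ∧ g.a ≤ u ∧ g.tc = s.C ∧
    InRect K ε g.b g.a g.th (toP s.V - g.vc) ∧ InRect K ε (g.b + t) (g.a + t) g.th (toP s.X - g.xc)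

/-- the image of an aperture read-out in the local coordinates: widths `(b - b_*, a - b_*)` -/
noncomputable def gresc (g : Geo) (ε r bs Cr : ℝ) (VJ XJ : E2) : Geo where
  b := g.b - bs
  a := g.a - bs
  tc := (g.tc - Cr) / ε ^ r
  th := g.th
  vc := (ε ^ bs)⁻¹ • (g.vc - toP VJ)
  xc := (ε ^ r * ε ^ bs)⁻¹ • (g.xc - toP XJ - (g.tc - Cr) • toP VJ)

/-- the image of a test in the local coordinates (same law, same labels, duration `t - r`) -/
noncomputable def PTest.resc (T : PTest) (ε r bs Cr : ℝ) (VJ XJ : E2) : PTest :=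
  { T with
    t := T.t - r
    site := fun i => (T.site i).resc ε r bs Cr VJ XJ
    geo := fun g => gresc (T.geo g) ε r bs Cr VJ XJ }

/-- the same test with another law on the same sample space -/
def PTest.withLaw (T : PTest) (Q : FLaw T.Ω) : PTest := { T with P := Q }

/-- the packet score (9.6) -/
noncomputable def score (γ : ℝ) (E : PEnv) (T : PTest) : ℝ :=
  (T.P.ent T.O + T.P.entC T.O T.D / 2) / lg E.ε
    + 3 / 2 * T.P.ev (fun o => Real.log (E.m T.t (T.site (T.O o))) / lg E.ε)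
    + 1 / 2 * T.P.ev (fun o => wt γ (T.geo (T.D o)))

/-- the constants of a class of packet systems -/
structure PBd where
  /-- `a0 a1 A` : phase;  `Bb` : derivative bounds of the test amplitudes;  `Rv` : input support and velocity centres;  `Rx` : position centres -/
  K : OscBd
  /-- support radius of the test amplitudes -/
  Ra : ℝ
  /-- multiplicity of the site families -/
  Mu : ℕ
  /-- enlargement constant of the apertures -/
  Ke : ℝ
  Hmax : ℝ
  Lmax : ℝ
  /-- lower bound of the durations -/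
  tmin : ℝ
  /-- order of the canonical root class -/
  M : ℕ

/-- the package is meaningful -/
structure PBd.Good (B : PBd) : Prop where
  a0 : 0 < B.K.a0
  tmin : 0 < B.tmin
  M : 10 ≤ B.M

/-- the environment obeys the bounds -/
structure PEnv.Obeys (E : PEnv) (B : PBd) : Prop where
  ε0 : 0 < E.ε
  ε1 : E.ε < 1
  H0 : 0 < E.H
  H1 : E.H ≤ B.Hmax
  L1 : E.L ≤ B.Lmax
  phase : IsPhase B.K E.Φ E.ζ
  mem : MemLp E.f 2 volume
  supp : ∀ v, E.f v ≠ 0 → ‖v‖ ≤ B.K.Rv

/-- the ACTIVE sites of a test: those charged by the law -/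
def PTest.act (T : PTest) (i : T.ι) : Prop := ∃ o, 0 < T.P.p o ∧ T.O o = i

/-- the test obeys the bounds.  ALL conditions only concern the ACTIVE sites / the support of the law (so that `withLaw`, `resc` and conditioning keep the types `Ω`, `ι`) -/
structure PTest.Obeys (T : PTest) (B : PBd) (E : PEnv) : Prop where
  t0 : B.tmin ≤ T.t
  amp : ∀ i, T.act i → AmpC B.Ra B.K.Bb (T.site i).ψ
  time : ∀ i, T.act i → 0 ≤ (T.site i).C ∧ (T.site i).C < 1
  vel : ∀ i, T.act i → ‖(T.site i).V‖ ≤ B.K.Rv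
  pos : ∀ i, T.act i → ‖(T.site i).X‖ ≤ B.K.Rx
  multT : ∀ i, T.act i → (((Finset.univ.filter T.act).image (fun j => (T.site j).C)).filter
    (fun c => |c - (T.site i).C| < E.ε ^ T.t)).card ≤ B.Mu
  multS : ∀ i, T.act i → (Finset.univ.filter (fun j => T.act j ∧ (T.site j).C = (T.site i).C ∧
    ‖(T.site j).V - (T.site i).V‖ < E.rho T.t ∧ ‖(T.site j).X - (T.site i).X‖ < E.sig T.t)).card ≤ B.Mu
  mpos : ∀ o, 0 < T.P.p o → 0 < E.m T.t (T.site (T.O o))
  geo : ∀ o, 0 < T.P.p o → GeoOK (T.geo (T.D o)) B.Ke E.ε T.t E.L (E.u T.t) (T.site (T.O o))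

/-- a canonical root test of order `M` -/
structure PTest.IsRoot (T : PTest) (M : ℕ) (E : PEnv) : Prop where
  t0 : T.t = 0
  amp : ∀ i, T.act i → CanC M (T.site i).ψ
  time : ∀ i, T.act i → (T.site i).C = 0
  sep : ∀ i j, T.act i → T.act j → i ≠ j →
    E.rho 0 ≤ ‖(T.site i).V - (T.site j).V‖ ∨ E.rho 0 ≤ ‖(T.site i).X - (T.site j).X‖
  mpos : ∀ o, 0 < T.P.p o → 0 < E.m 0 (T.site (T.O o))
  geo : ∀ o, 0 < T.P.p o → GeoOK (T.geo (T.D o)) 1 E.ε 0 E.L (E.u 0) (T.site (T.O o))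

/-- the values competing in `K_0(f)` : the norm option and the canonical root scores -/
def K0set (γ : ℝ) (M : ℕ) (E : PEnv) : Set ℝ :=
  {x | x = 3 / 2 * (Real.log E.nrm2 / lg E.ε) ∨ ∃ T : PTest, T.IsRoot M E ∧ x = score γ E T}

/-- `K_0(f)` -/
noncomputable def K0 (γ : ℝ) (M : ℕ) (E : PEnv) : ℝ := sSup (K0set γ M E)

/-- `K_0^{≥ w} ≤ y` : every ACTUAL root aperture score with smaller widths `b ≥ w` is at most `y` (the norm option is excluded)      (10.13) -/
def K0geLe (γ : ℝ) (M : ℕ) (E : PEnv) (w y : ℝ) : Prop :=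
  ∀ T : PTest, T.IsRoot M E → (∀ o, 0 < T.P.p o → w ≤ (T.geo (T.D o)).b) → score γ E T ≤ y

/-- "the packet growth rate is at most `β`" : the uniform finite form (9.8) -/
def PRate (γ β : ℝ) : Prop :=
  ∀ B : PBd, B.Good → ∀ ν : ℝ, 0 < ν → ∃ ε₀ : ℝ, 0 < ε₀ ∧ ε₀ < 1 ∧
    ∀ (E : PEnv) (T : PTest), E.ε < ε₀ → E.Obeys B → T.Obeys B E →
      score γ E T ≤ K0 γ B.M E + β * T.t + ν

/-- `β_q` -/
noncomputable def betaq (γ : ℝ) : ℝ := sInf {β : ℝ | 0 ≤ β ∧ PRate γ β}

end Claimed.Agent.R255.Pkt
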