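import Claimed.Agent.R255.Comp.Chain
import Claimed.Agent.R255.Cl.Top
import Claimed.Agent.R255.Osc.EndOfPkt
import Claimed.Agent.R255.Pk9.Triv

/-!
# R255 / Pkt / Final : TOP GLUE OF THE PACKET HALF (BR Secs. 9-12)        (architect helper207)   -- KEEP

`osc : Osc.OSC` (BR Thm 12.1) from `classical_growth` (BR Thm 4.2).
NO `sorry` HERE.   CITED: `p9_prate_one` (`Pk9/Triv.lean`, helper256; P9.6), `osc_of_prate_main` (`Osc/EndOfPkt.lean`, helper17; Thm 9.1 ⟹ Thm 12.1), `pc_chain_el`, `pc_chain_iso` (`Comp/Chain.lean`, helper242; from `step_el`, `step_iso` of helper128 and `start_el`, `start_iso`).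
-/

set_option autoImplicit false

namespace Claimed.Agent.R255.Pkt

open Claimed.Agent.R255.Osc

/-- **Proposition 9.6** -/
theorem prate_one (γ : ℝ) (h0 : 0 < γ) (h1 : γ < 1) : PRate γ 1 :=
  p9_prate_one γ h0 h1

theorem betaq_le (γ : ℝ) (h0 : 0 < γ) (h1 : γ < 1) : betaq γ ≤ γ / 2 := by
  by_contra h
  push Not at h
  have hpos : 0 < betaq γ := by linarith
  have hcl := classical_growth γ h0 h1
  have hone := prate_one γ h0 h1
  have hr := prate_betaq_of γ hone
  have hb1 := betaq_le_one_of γ hone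
  by_cases hF : ∃ ν κ : ℝ, 0 < ν ∧ 0 < κ ∧ Forced γ (betaq γ) ν κ
  · obtain ⟨ν, κ, hν, hκ, hF⟩ := hF
    exact pc_chain_el γ _ h0 h1 h hb1 hr hcl ν κ hν hκ hF
  · push Not at hF
    exact pc_chain_iso γ _ h0 h1 h hb1 hr hcl (saturated_betaq γ hpos) hF

/-- **Theorem 9.1** (packet growth), uniform finite form -/
theorem packet_growth (γ : ℝ) (h0 : 0 < γ) (h1 : γ < 1) : PRate γ (γ / 2) :=
  (prate_betaq_of γ (prate_one γ h0 h1)).mono (betaq_le γ h0 h1)

/-- **Theorem 9.1 ⟹ Theorem 12.1** -/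
theorem osc_of_prate (H : ∀ γ : ℝ, 0 < γ → γ < 1 → PRate γ (γ / 2)) : OSC :=
  osc_of_prate_main H

/-- **Theorem 12.1** -/
theorem osc : OSC := osc_of_prate packet_growth

end Claimed.Agent.R255.Pkt
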